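import Vale.Agent.P106.R.H610.Flags

/-!
# P106 / R, copy of P122 / H616 : almost minimal valid structures (C-R0)

`Psi F pot V J = ∑ J c + ∑ pot b (D_b V)`.  A valid structure `V` is `Min` with slope `A` and slack `t` if for every valid
refinement `V'` with loss `q` : `Psi V ≤ Psi V' + A log₂ q + t`.

* `exists_min` : below every valid structure there is an almost minimal one, with total loss `2 ^ l`, `A l ≤ Psi V₀ + 1`.
* `Min.step` : refinements of almost minimal structures are almost minimal.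
* `Min.J_le`, `Min.pot_le` : the number of children and the potentials do not drop.
* `Min.card_Fg_le` : the flags of a refinement are dense.
-/

set_option autoImplicit false

namespace Vale.Agent.P106.R.H616

open Finset Vale.Agent.P106.R.C2 Vale.Agent.P106.R.H610

variable {C : ℝ} {n K : ℕ}

/-- monotone nonnegative potentials -/
structure PotOk (pot : ℕ → Finset Nd → ℝ) : Prop where
  mono : ∀ b D D', D' ⊆ D → D'.Nonempty → pot b D' ≤ pot b D
  nonneg : ∀ b D, D.Nonempty → 0 ≤ pot b D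

/-- the functional -/
noncomputable def Psi (F : Amp C n K) (pot : ℕ → Finset Nd → ℝ) (V : Val) (J : ℕ → ℕ) : ℝ :=
  ∑ c ∈ range K, (J c : ℝ) + ∑ b ∈ range (K + 1), pot b (V.D F.s n b)

/-- almost minimal valid structure -/
structure Min (F : Amp C n K) (pot : ℕ → Finset Nd → ℝ) (A t : ℝ) (V : Val) (ρ : ℝ) (a : ℕ → ℝ) (J : ℕ → ℕ) : Prop where
  ok : V.Ok F ρ a J
  ne : V.X.Nonempty
  ρ0 : 0 < ρ
  min : ∀ (V' : Val) (ρ' : ℝ) (J' : ℕ → ℕ) (q : ℝ), V'.Le V → V'.Ok F ρ' a J' → 1 ≤ q → ρ / q ≤ ρ' →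
    (V.X.card : ℝ) ≤ q * V'.X.card → Psi F pot V J ≤ Psi F pot V' J' + A * Real.logb 2 q + t

section

variable {F : Amp C n K} {pot : ℕ → Finset Nd → ℝ} {V V' : Val} {ρ ρ' A t : ℝ} {a : ℕ → ℝ} {J J' : ℕ → ℕ}

/-- the reached sets are nonempty -/
theorem D_nonempty (h : V.Ok F ρ a J) (hX : V.X.Nonempty) : ∀ i, i ≤ K → (V.D F.s n i).Nonempty := by
  intro i
  induction i with
  | zero => exact fun _ => hX
  | succ i ih =>
    intro hi
    obtain ⟨S, hS⟩ := ih (by omega)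
    have h1 := (h.size i (by omega) S hS).1
    have h2 : 0 < (V.G i (S.sg n)).card := lt_of_lt_of_le (by positivity) h1
    obtain ⟨τ', hτ⟩ := Finset.card_pos.1 h2
    exact ⟨nx F.s n i S τ', Val.mem_D_succ.2 ⟨S, hS, τ', hτ, rfl⟩⟩

/-- the number of children drops -/
theorem J_mono (h : V.Ok F ρ a J) (h' : V'.Ok F ρ' a J') (hle : V'.Le V) (hX : V'.X.Nonempty) {c : ℕ} (hc : c < K) :
    J' c ≤ J c := by
  obtain ⟨S, hS⟩ := D_nonempty h' hX c hc.le
  have h1 := (h'.size c hc S hS).1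
  have h2 := (h.size c hc S (hle.D c hS)).2
  have h3 := Finset.card_le_card (hle.2 c (S.sg n))
  have h4 : 2 ^ J' c < 2 ^ (J c + 1) := lt_of_le_of_lt (h1.trans h3) h2
  have := (Nat.pow_lt_pow_iff_right (by norm_num : 1 < 2)).1 h4
  omega

theorem pot_mono (hp : PotOk pot) (h' : V'.Ok F ρ' a J') (hle : V'.Le V) (hX : V'.X.Nonempty) {b : ℕ} (hb : b ≤ K) :
    pot b (V'.D F.s n b) ≤ pot b (V.D F.s n b) :=
  hp.mono b _ _ (hle.D b) (D_nonempty h' hX b hb)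

theorem Psi_mono (hp : PotOk pot) (h : V.Ok F ρ a J) (h' : V'.Ok F ρ' a J') (hle : V'.Le V) (hX : V'.X.Nonempty) :
    Psi F pot V' J' ≤ Psi F pot V J := by
  unfold Psi
  refine add_le_add (Finset.sum_le_sum fun c hc => ?_) (Finset.sum_le_sum fun b hb => ?_)
  · exact_mod_cast J_mono h h' hle hX (Finset.mem_range.1 hc)
  · exact pot_mono hp h' hle hX (Nat.lt_succ_iff.1 (Finset.mem_range.1 hb))

theorem Psi_nonneg (hp : PotOk pot) (h : V.Ok F ρ a J) (hX : V.X.Nonempty) : 0 ≤ Psi F pot V J := by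
  unfold Psi
  refine add_nonneg (Finset.sum_nonneg fun c _ => Nat.cast_nonneg _) (Finset.sum_nonneg fun b hb => ?_)
  exact hp.nonneg b _ (D_nonempty h hX b (Nat.lt_succ_iff.1 (Finset.mem_range.1 hb)))

theorem X_nonempty {q : ℝ} (hX : V.X.Nonempty) (hq : (V.X.card : ℝ) ≤ q * V'.X.card) : V'.X.Nonempty := by
  rw [← Finset.card_pos]
  by_contra hcon
  have h0 : V'.X.card = 0 := by omega
  rw [h0, Nat.cast_zero, mul_zero] at hq
  have : (0 : ℝ) < V.X.card := by exact_mod_cast Finset.card_pos.2 hX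
  linarith

/-- **existence** of an almost minimal structure -/
theorem exists_min (hp : PotOk pot) (hA : 0 < A) (h0 : V.Ok F ρ a J) (hX : V.X.Nonempty) (hρ : 0 < ρ) :
    ∃ (V' : Val) (ρ' : ℝ) (J' : ℕ → ℕ) (l : ℝ), V'.Le V ∧ Min F pot A 1 V' ρ' a J' ∧ 0 ≤ l ∧
      A * l ≤ Psi F pot V J + 1 ∧ ρ / (2 : ℝ) ^ l ≤ ρ' ∧ (V.X.card : ℝ) ≤ (2 : ℝ) ^ l * V'.X.card := by
  -- all values of the penalised functional
  set T : Set ℝ := {x | ∃ (V' : Val) (ρ' : ℝ) (J' : ℕ → ℕ) (l : ℝ), V'.Le V ∧ V'.Ok F ρ' a J' ∧ 0 ≤ l ∧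
      ρ / (2 : ℝ) ^ l ≤ ρ' ∧ (V.X.card : ℝ) ≤ (2 : ℝ) ^ l * V'.X.card ∧ x = Psi F pot V' J' + A * l} with hT
  have hne : Psi F pot V J ∈ T :=
    ⟨V, ρ, J, 0, Val.Le.refl V, h0, le_rfl, by simp, by simp, by ring⟩
  have hbd : BddBelow T := by
    refine ⟨0, ?_⟩
    rintro x ⟨V', ρ', J', l, -, h2, h3, -, h5, rfl⟩
    exact add_nonneg (Psi_nonneg hp h2 (X_nonempty hX h5)) (mul_nonneg hA.le h3)
  obtain ⟨x, ⟨V', ρ', J', l, h1, h2, h3, h4, h5, rfl⟩, hx⟩ : ∃ x ∈ T, x < sInf T + 1 :=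
    exists_lt_of_csInf_lt ⟨_, hne⟩ (by linarith)
  have hX' := X_nonempty hX h5
  have h2l : (0 : ℝ) < (2 : ℝ) ^ l := Real.rpow_pos_of_pos (by norm_num) l
  refine ⟨V', ρ', J', l, h1, ⟨h2, hX', lt_of_lt_of_le (by positivity) h4, ?_⟩, h3, ?_, h4, h5⟩
  · intro V'' ρ'' J'' q k1 k2 k3 k4 k5
    have hq0 : (0 : ℝ) < q := by linarith
    have hlq : (2 : ℝ) ^ (l + Real.logb 2 q) = 2 ^ l * q := by
      rw [Real.rpow_add (by norm_num), Real.rpow_logb (by norm_num) (by norm_num) hq0]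
    have hmem : Psi F pot V'' J'' + A * (l + Real.logb 2 q) ∈ T := by
      refine ⟨V'', ρ'', J'', l + Real.logb 2 q, k1.trans h1, k2,
        add_nonneg h3 (Real.logb_nonneg (by norm_num) k3), ?_, ?_, rfl⟩
      · rw [hlq, ← div_div]
        exact (div_le_div_of_nonneg_right h4 hq0.le).trans k4
      · rw [hlq, mul_assoc]
        exact h5.trans (mul_le_mul_of_nonneg_left k5 h2l.le)
    have := csInf_le hbd hmem
    linarith
  · have h6 := csInf_le hbd hne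
    have h7 := Psi_nonneg hp h2 hX'
    linarith

/-- refinements of almost minimal structures are almost minimal -/
theorem Min.step (hp : PotOk pot) (h : Min F pot A t V ρ a J) (hA : 0 ≤ A) {q : ℝ} (hq : 1 ≤ q) (hle : V'.Le V)
    (h' : V'.Ok F ρ' a J') (hρ : ρ / q ≤ ρ') (hX : (V.X.card : ℝ) ≤ q * V'.X.card) :
    Min F pot A (t + A * Real.logb 2 q) V' ρ' a J' := by
  have hX' := X_nonempty h.ne hX
  have hq0 : (0 : ℝ) < q := by linarith
  have hρ0 := h.ρ0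
  refine ⟨h', hX', lt_of_lt_of_le (by positivity) hρ, ?_⟩
  intro V'' ρ'' J'' q' k1 k2 k3 k4 k5
  have hq'0 : (0 : ℝ) < q' := by linarith
  have h1 := h.min V'' ρ'' J'' (q * q') (k1.trans hle) k2 (one_le_mul_of_one_le_of_one_le hq k3) ?_ ?_
  · rw [Real.logb_mul hq0.ne' hq'0.ne'] at h1
    have h2 := Psi_mono hp h.ok h' hle hX'
    linarith
  · rw [← div_div]
    exact (div_le_div_of_nonneg_right hρ hq'0.le).trans k4
  · rw [mul_assoc]
    exact hX.trans (mul_le_mul_of_nonneg_left k5 hq0.le)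

theorem Min.mono {t' : ℝ} (h : Min F pot A t V ρ a J) (ht : t ≤ t') : Min F pot A t' V ρ a J :=
  ⟨h.ok, h.ne, h.ρ0, fun V' ρ' J' q h1 h2 h3 h4 h5 => (h.min V' ρ' J' q h1 h2 h3 h4 h5).trans (by linarith)⟩

/-- the number of children does not drop -/
theorem Min.J_le (hp : PotOk pot) (h : Min F pot A t V ρ a J) {q : ℝ} (hq : 1 ≤ q) (hle : V'.Le V)
    (h' : V'.Ok F ρ' a J') (hρ : ρ / q ≤ ρ') (hX : (V.X.card : ℝ) ≤ q * V'.X.card) {c : ℕ} (hc : c < K) :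
    (J c : ℝ) ≤ J' c + (A * Real.logb 2 q + t) := by
  have hX' := X_nonempty h.ne hX
  have h1 := h.min V' ρ' J' q hle h' hq hρ hX
  unfold Psi at h1
  have h2 : ∑ b ∈ range (K + 1), pot b (V'.D F.s n b) ≤ ∑ b ∈ range (K + 1), pot b (V.D F.s n b) :=
    Finset.sum_le_sum fun b hb => pot_mono hp h' hle hX' (Nat.lt_succ_iff.1 (Finset.mem_range.1 hb))
  have h3 : ∑ c ∈ range K, ((J c : ℝ) - J' c) ≤ A * Real.logb 2 q + t := by
    rw [Finset.sum_sub_distrib]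
    linarith
  have h4 : (J c : ℝ) - J' c ≤ ∑ c ∈ range K, ((J c : ℝ) - J' c) :=
    Finset.single_le_sum (f := fun c => (J c : ℝ) - J' c) (fun i hi => by
      have : (J' i : ℝ) ≤ J i := by exact_mod_cast J_mono h.ok h' hle hX' (Finset.mem_range.1 hi)
      linarith) (Finset.mem_range.2 hc)
  linarith

/-- the sum of the numbers of children does not drop -/
theorem Min.sum_J_le (hp : PotOk pot) (h : Min F pot A t V ρ a J) {q : ℝ} (hq : 1 ≤ q) (hle : V'.Le V)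
    (h' : V'.Ok F ρ' a J') (hρ : ρ / q ≤ ρ') (hX : (V.X.card : ℝ) ≤ q * V'.X.card) :
    ((∑ c ∈ range K, J c : ℕ) : ℝ) ≤ (∑ c ∈ range K, J' c : ℕ) + (A * Real.logb 2 q + t) := by
  have hX' := X_nonempty h.ne hX
  have h1 := h.min V' ρ' J' q hle h' hq hρ hX
  unfold Psi at h1
  have h2 : ∑ b ∈ range (K + 1), pot b (V'.D F.s n b) ≤ ∑ b ∈ range (K + 1), pot b (V.D F.s n b) :=
    Finset.sum_le_sum fun b hb => pot_mono hp h' hle hX' (Nat.lt_succ_iff.1 (Finset.mem_range.1 hb))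
  push_cast
  linarith

/-- the potentials do not drop -/
theorem Min.pot_le (hp : PotOk pot) (h : Min F pot A t V ρ a J) {q : ℝ} (hq : 1 ≤ q) (hle : V'.Le V)
    (h' : V'.Ok F ρ' a J') (hρ : ρ / q ≤ ρ') (hX : (V.X.card : ℝ) ≤ q * V'.X.card) {b : ℕ} (hb : b ≤ K) :
    pot b (V.D F.s n b) ≤ pot b (V'.D F.s n b) + (A * Real.logb 2 q + t) := by
  have hX' := X_nonempty h.ne hX
  have h1 := h.min V' ρ' J' q hle h' hq hρ hX
  unfold Psi at h1
  have h2 : ∑ c ∈ range K, (J' c : ℝ) ≤ ∑ c ∈ range K, (J c : ℝ) :=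
    Finset.sum_le_sum fun c hc => by exact_mod_cast J_mono h.ok h' hle hX' (Finset.mem_range.1 hc)
  have h3 : ∑ b ∈ range (K + 1), (pot b (V.D F.s n b) - pot b (V'.D F.s n b)) ≤ A * Real.logb 2 q + t := by
    rw [Finset.sum_sub_distrib]
    linarith
  have h4 : pot b (V.D F.s n b) - pot b (V'.D F.s n b) ≤
      ∑ b ∈ range (K + 1), (pot b (V.D F.s n b) - pot b (V'.D F.s n b)) :=
    Finset.single_le_sum (f := fun b => pot b (V.D F.s n b) - pot b (V'.D F.s n b)) (fun i hi => by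
      have := pot_mono hp h' hle hX' (Nat.lt_succ_iff.1 (Finset.mem_range.1 hi))
      linarith) (Finset.mem_range.2 (Nat.lt_succ_of_le hb))
  linarith

/-- **density** : the flags of a refinement -/
theorem Min.card_Fg_le (hp : PotOk pot) (h : Min F pot A t V ρ a J) {q : ℝ} (hq : 1 ≤ q) (hle : V'.Le V)
    (h' : V'.Ok F ρ' a J') (hρ : ρ / q ≤ ρ') (hX : (V.X.card : ℝ) ≤ q * V'.X.card) :
    ((Fg V F.s n K).card : ℝ) ≤ q * (2 : ℝ) ^ (A * Real.logb 2 q + t + K) * (Fg V' F.s n K).card := by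
  have h1 := (card_Fg h.ok (i := K) le_rfl).2
  have h2 := (card_Fg h' (i := K) le_rfl).1
  have h3 := h.sum_J_le hp hq hle h' hρ hX
  have hq0 : (0 : ℝ) < q := by linarith
  have e1 : ∑ j ∈ range K, (J j + 1) = ∑ j ∈ range K, J j + K := by
    rw [Finset.sum_add_distrib]
    simp
  rw [e1] at h1
  set s : ℝ := A * Real.logb 2 q + t with hs
  have h1' : ((Fg V F.s n K).card : ℝ) ≤ V.X.card * (2 : ℝ) ^ (((∑ j ∈ range K, J j : ℕ) : ℝ) + K) := by
    have : ((Fg V F.s n K).card : ℝ) ≤ V.X.card * (2 : ℝ) ^ (∑ j ∈ range K, J j + K) := by exact_mod_cast h1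
    refine this.trans (le_of_eq ?_)
    rw [← Real.rpow_natCast]
    push_cast
    rfl
  have h2' : (V'.X.card : ℝ) * (2 : ℝ) ^ ((∑ j ∈ range K, J' j : ℕ) : ℝ) ≤ (Fg V' F.s n K).card := by
    rw [Real.rpow_natCast]
    exact_mod_cast h2
  have h4 : (2 : ℝ) ^ (((∑ j ∈ range K, J j : ℕ) : ℝ) + K) ≤
      (2 : ℝ) ^ (s + K) * (2 : ℝ) ^ ((∑ j ∈ range K, J' j : ℕ) : ℝ) := by
    rw [← Real.rpow_add (by norm_num)]
    exact Real.rpow_le_rpow_of_exponent_le (by norm_num) (by linarith)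
  have hp1 : (0 : ℝ) < (2 : ℝ) ^ (s + K) := Real.rpow_pos_of_pos (by norm_num) _
  calc ((Fg V F.s n K).card : ℝ) ≤ V.X.card * (2 : ℝ) ^ (((∑ j ∈ range K, J j : ℕ) : ℝ) + K) := h1'
    _ ≤ V.X.card * ((2 : ℝ) ^ (s + K) * (2 : ℝ) ^ ((∑ j ∈ range K, J' j : ℕ) : ℝ)) :=
      mul_le_mul_of_nonneg_left h4 (Nat.cast_nonneg _)
    _ ≤ (q * V'.X.card) * ((2 : ℝ) ^ (s + K) * (2 : ℝ) ^ ((∑ j ∈ range K, J' j : ℕ) : ℝ)) :=
      mul_le_mul_of_nonneg_right hX (by positivity)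
    _ = q * (2 : ℝ) ^ (s + K) * (V'.X.card * (2 : ℝ) ^ ((∑ j ∈ range K, J' j : ℕ) : ℝ)) := by ring
    _ ≤ q * (2 : ℝ) ^ (s + K) * (Fg V' F.s n K).card := mul_le_mul_of_nonneg_left h2' (by positivity)

end

end Vale.Agent.P106.R.H616
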