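import Vale.Agent.P106.R.H616.Bridge
import Vale.Agent.P106.R.E.RG

/-!
# P106 / R, copy of P122 / H616 : the statement `E.RGmin`
-/

set_option autoImplicit false

namespace Vale.Agent.P106.R.H616

open Vale.Agent.P106.R.E Vale.Agent.P106.R.H610

/-- **RGmin** -/
theorem rgmin : RGmin := by
  intro K Z W
  obtain ⟨W', h1, _, _, h4⟩ := exists_stable W
  exact ⟨W', h1, h4⟩

end Vale.Agent.P106.R.H616
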