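import Vale.Agent.P106.R.H616.Stab
import Vale.Agent.P106.R.H610.Stab

/-!
# P106 / R, copy of P122 / H616 : stability in the form of H610/Stab

`VS.en W c = elv W c`, `W.Stable ↔ Stab W`, `exists_stable`.
-/

set_option autoImplicit false

namespace Vale.Agent.P106.R.H616

open Filter Topology Vale.Agent.P127.U Vale.Agent.P106.R.C2 Vale.Agent.P106.R.H610 Vale.Agent.P106.R.H286

variable {K : ℕ} {Z : CS K}

theorem Jn_eq (W : VS Z) (c : ℕ) : W.Jn c = jlv W c := rfl

/-- the least counting excess is the limit of `lmx` -/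
theorem en_eq (W : VS Z) {c : ℕ} (hc : c ≤ K) : W.en c = elv W c :=
  sInf_dens (L := fun i => K * Z.n i) (Z.ntop.const_mul_atTop' (lt_of_lt_of_le Nat.zero_lt_one Z.K1))
    (fun i => (Z.F i).s) Z.n c (fun i => W.D c i)
    (Eventually.of_forall fun i => D_nonempty (W.ok i) (W.ne i) c hc) (OL_lmx W hc)

theorem stable_iff (W : VS Z) : W.Stable ↔ Stab W := by
  constructor
  · intro h W' hle
    obtain ⟨h1, h2⟩ := h W' hle
    refine ⟨h1, fun c hc => ?_⟩
    rw [← en_eq W' hc, ← en_eq W hc]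
    exact h2 c hc
  · intro h W' hle
    obtain ⟨h1, h2⟩ := h W' hle
    refine ⟨h1, fun c hc => ?_⟩
    rw [en_eq W' hc, en_eq W hc]
    exact h2 c hc

theorem elv_nonneg (W : VS Z) {c : ℕ} (hc : c ≤ K) : 0 ≤ elv W c := by
  refine const_le_ulim (OL_lmx W hc) (Eventually.of_forall fun i => ?_)
  exact div_nonneg (lmx_nonneg _ _ _ (D_nonempty (W.ok i) (W.ne i) c hc)) (L_nonneg i)

/-- **stable refinements** (inclusion and amplitudes for all indices) -/
theorem exists_stable (W : VS Z) :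
    ∃ W' : VS Z, W'.Le W ∧ W'.Incl W ∧ (∀ i, W'.a i = W.a i) ∧ W'.Stable := by
  obtain ⟨W', h1, h2, h3, h4⟩ := exists_stab W
  exact ⟨W', h1, h2, h3, (stable_iff W').2 h4⟩

end Vale.Agent.P106.R.H616
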