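import Vale.Agent.P127.U.Lim

/-!
# P106 / R, copy of P122 / H616 : minimal sequences (abstract form of RGmin)

`R ε i V' V` : `V'` is a refinement of `V` (both of index `i`) with loss at most `ε`.  A sequence `W'` refines `W` if for
every `ε > 0` eventually `R ε i (W' i) (W i)`.  `f c` are finitely many functionals which decrease under refinement.
`diag_min` : every sequence has a refinement `W'` such that no further refinement changes the limits of the functionals.
-/

set_option autoImplicit false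

namespace Vale.Agent.P106.R.H616

open Filter Topology Vale.Agent.P127.U

section

variable {T : ℕ → Type*} (R : ℝ → ∀ i, T i → T i → Prop)

/-- refinement of sequences -/
def Rf (W' W : ∀ i, T i) : Prop := ∀ ε : ℝ, 0 < ε → ∀ᶠ i in (uf : Filter ℕ), R ε i (W' i) (W i)

/-- axioms of a refinement relation -/
structure RfOk : Prop where
  mono : ∀ ε ε' i V V', ε ≤ ε' → R ε i V' V → R ε' i V' V
  trans : ∀ ε ε' i V V' V'', 0 < ε → 0 < ε' → R ε i V' V → R ε' i V'' V' → R (ε + ε') i V'' V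
  self : ∀ ε i V V', 0 < ε → R ε i V' V → R ε i V' V'

variable {R}

theorem Rf.trans (hR : RfOk R) {W W' W'' : ∀ i, T i} (h : Rf R W' W) (h' : Rf R W'' W') : Rf R W'' W := by
  intro ε hε
  filter_upwards [h (ε / 2) (by linarith), h' (ε / 2) (by linarith)] with i h1 h2
  have := hR.trans (ε / 2) (ε / 2) i _ _ _ (by linarith) (by linarith) h1 h2
  rwa [add_halves] at this

/-- **one functional** -/
theorem diag_min_one (hR : RfOk R) (f : ∀ i, T i → ℝ) (f0 : ∀ i V, 0 ≤ f i V)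
    (fm : ∀ ε i V V', R ε i V' V → f i V' ≤ f i V) (W : ∀ i, T i) (hW : Rf R W W)
    (hb : UB fun i => f i (W i)) :
    ∃ W' : ∀ i, T i, Rf R W' W ∧ Rf R W' W' ∧
      ∀ W'' : ∀ i, T i, Rf R W'' W' → ulim (fun i => f i (W'' i)) = ulim fun i => f i (W' i) := by
  classical
  have hUB : ∀ W' : ∀ i, T i, Rf R W' W → UB fun i => f i (W' i) := by
    intro W' h
    obtain ⟨C, hC⟩ := hb
    refine ⟨C, ?_⟩
    filter_upwards [hC, h 1 one_pos] with i h1 h2
    rw [abs_of_nonneg (f0 _ _)]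
    exact (fm 1 i _ _ h2).trans ((le_abs_self _).trans h1)
  set m : Set ℝ := {x | ∃ W' : ∀ i, T i, Rf R W' W ∧ x = ulim fun i => f i (W' i)} with hm
  have hne : m.Nonempty := ⟨_, W, hW, rfl⟩
  have hbd : BddBelow m := by
    refine ⟨0, ?_⟩
    rintro x ⟨W', h, rfl⟩
    exact const_le_ulim (hUB W' h) (Eventually.of_forall fun i => f0 _ _)
  -- minimising sequence
  have hex : ∀ k : ℕ, ∃ W' : ∀ i, T i, Rf R W' W ∧ ulim (fun i => f i (W' i)) < sInf m + 1 / ((k : ℝ) + 1) := by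
    intro k
    obtain ⟨x, ⟨W', h, rfl⟩, hx⟩ := exists_lt_of_csInf_lt hne (show sInf m < sInf m + 1 / ((k : ℝ) + 1) by
      have : (0 : ℝ) < 1 / ((k : ℝ) + 1) := by positivity
      linarith)
    exact ⟨W', h, hx⟩
  choose Wk hk1 hk2 using hex
  -- the sets of the diagonal lemma
  set A : ℕ → Set ℕ := fun k => {i | R (1 / ((k : ℝ) + 1)) i (Wk k i) (W i) ∧
    f i (Wk k i) < sInf m + 1 / ((k : ℝ) + 1)} with hA
  have hAev : ∀ k, ∀ᶠ i in (uf : Filter ℕ), i ∈ A k := by
    intro k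
    filter_upwards [hk1 k (1 / ((k : ℝ) + 1)) (by positivity), ulim_lt_eventually (hUB _ (hk1 k)) (hk2 k)] with i h1 h2
    exact ⟨h1, h2⟩
  obtain ⟨κ, hκ1, hκ2⟩ := diagonal hAev
  have hsmall : ∀ ε : ℝ, 0 < ε → ∀ᶠ i in (uf : Filter ℕ), 1 / ((κ i : ℝ) + 1) ≤ ε := by
    intro ε hε
    obtain ⟨N, hN⟩ := exists_nat_gt (1 / ε)
    filter_upwards [hκ1.eventually (eventually_ge_atTop N)] with i hi
    have h1 : (N : ℝ) ≤ κ i := by exact_mod_cast hi
    rw [div_le_iff₀ (by positivity)]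
    rw [div_lt_iff₀ hε] at hN
    nlinarith
  set W' : ∀ i, T i := fun i => Wk (κ i) i with hW'
  have h1 : Rf R W' W := by
    intro ε hε
    filter_upwards [hκ2, hsmall ε hε] with i hi hi'
    exact hR.mono _ _ i _ _ hi' hi.1
  have h2 : ulim (fun i => f i (W' i)) ≤ sInf m := by
    refine le_of_forall_pos_lt_add fun ε hε => ?_
    refine lt_of_le_of_lt (ulim_le_const (hUB W' h1) (c := sInf m + ε / 2) ?_) (by linarith)
    filter_upwards [hκ2, hsmall (ε / 2) (by linarith)] with i hi hi'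
    have := hi.2
    show f i (Wk (κ i) i) ≤ _
    linarith
  have h3 : ∀ W'' : ∀ i, T i, Rf R W'' W' → ulim (fun i => f i (W'' i)) = ulim fun i => f i (W' i) := by
    intro W'' h
    have h4 : Rf R W'' W := h1.trans hR h
    refine le_antisymm ?_ (h2.trans (csInf_le hbd ⟨W'', h4, rfl⟩))
    refine ulim_le (hUB _ h4) (hUB _ h1) ?_
    filter_upwards [h 1 one_pos] with i hi
    exact fm 1 i _ _ hi
  refine ⟨W', h1, fun ε hε => ?_, h3⟩
  filter_upwards [h1 ε hε] with i hi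
  exact hR.self ε i _ _ hε hi

/-- **finitely many functionals** -/
theorem diag_min {ι : Type*} [Fintype ι] (hR : RfOk R) (f : ι → ∀ i, T i → ℝ) (f0 : ∀ c i V, 0 ≤ f c i V)
    (fm : ∀ c ε i V V', R ε i V' V → f c i V' ≤ f c i V) (W : ∀ i, T i) (hW : Rf R W W)
    (hb : ∀ c, UB fun i => f c i (W i)) :
    ∃ W' : ∀ i, T i, Rf R W' W ∧ Rf R W' W' ∧
      ∀ W'' : ∀ i, T i, Rf R W'' W' → ∀ c, ulim (fun i => f c i (W'' i)) = ulim fun i => f c i (W' i) := by
  classical
  have hsum : ∀ (s : Finset ι) (g : ι → ℕ → ℝ), (∀ c, UB (g c)) →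
      UB (fun i => ∑ c ∈ s, g c i) ∧ ulim (fun i => ∑ c ∈ s, g c i) = ∑ c ∈ s, ulim (g c) := by
    intro s g hg
    have : Tendsto (fun i => ∑ c ∈ s, g c i) (uf : Filter ℕ) (𝓝 (∑ c ∈ s, ulim (g c))) :=
      tendsto_finset_sum _ fun c _ => (hg c).tendsto
    exact ⟨UB.of_tendsto this, ulim_eq this⟩
  obtain ⟨W', h1, h2, h3⟩ := diag_min_one hR (fun i V => ∑ c, f c i V) (fun i V => Finset.sum_nonneg fun c _ => f0 c i V)
    (fun ε i V V' h => Finset.sum_le_sum fun c _ => fm c ε i V V' h) W hW (hsum Finset.univ _ hb).1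
  have hUB : ∀ W'' : ∀ i, T i, Rf R W'' W → ∀ c, UB fun i => f c i (W'' i) := by
    intro W'' h c
    obtain ⟨C, hC⟩ := hb c
    refine ⟨C, ?_⟩
    filter_upwards [hC, h 1 one_pos] with i g1 g2
    rw [abs_of_nonneg (f0 _ _ _)]
    exact (fm c 1 i _ _ g2).trans ((le_abs_self _).trans g1)
  refine ⟨W', h1, h2, fun W'' h c => ?_⟩
  have h4 := h1.trans hR h
  have h5 := h3 W'' h
  rw [(hsum Finset.univ (fun c i => f c i (W'' i)) (hUB W'' h4)).2,
    (hsum Finset.univ (fun c i => f c i (W' i)) (hUB W' h1)).2] at h5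
  have h6 : ∀ c, ulim (fun i => f c i (W'' i)) ≤ ulim fun i => f c i (W' i) := fun c => by
    refine ulim_le (hUB _ h4 c) (hUB _ h1 c) ?_
    filter_upwards [h 1 one_pos] with i hi
    exact fm c 1 i _ _ hi
  exact (Finset.sum_eq_sum_iff_of_le fun c _ => h6 c).1 h5 c (Finset.mem_univ c)

end

end Vale.Agent.P106.R.H616
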